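import Vale.Agent.P038.H360.Star
import Vale.Agent.P038.H139.GStep
import Vale.Agent.P038.H139.Ex

/-!
# The second neighbourhood conjecture: the main argument
-/

namespace Vale.Agent.P038.H360

open Finset Vale.Agent.P038 Vale.Agent.P038.H139

universe u

section

variable {V : Type*} [Fintype V]

/-- The weight of the out-boundary of `S`. -/
noncomputable def cc (D : OGraph V) (w : V → ℝ) (S : Finset V) : ℝ := W w (cl D S) - W w S

open Classical in
/-- The closed in-neighbourhood of `v`. -/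
noncomputable def inn (D : OGraph V) (v : V) : Finset V :=
  Finset.univ.filter fun z => z = v ∨ D.arc z v

theorem mem_inn {D : OGraph V} {v z : V} : z ∈ inn D v ↔ z = v ∨ D.arc z v := by
  classical
  simp [inn]

theorem self_inn (D : OGraph V) (v : V) : v ∈ inn D v := mem_inn.2 (Or.inl rfl)

theorem subset_cl (D : OGraph V) (S : Finset V) : S ⊆ cl D S := fun _ hx => mem_cl.2 (Or.inl hx)

theorem cl_mono' {D : OGraph V} {S T : Finset V} (h : S ⊆ T) : cl D S ⊆ cl D T := by
  intro x hx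
  rcases mem_cl.1 hx with h1 | ⟨y, h1, h2⟩
  · exact mem_cl.2 (Or.inl (h h1))
  · exact mem_cl.2 (Or.inr ⟨y, h h1, h2⟩)

theorem mem_cl_iff {D : OGraph V} {S : Finset V} {x : V} :
    x ∈ cl D S ↔ ∃ y ∈ S, y ∈ inn D x := by
  rw [mem_cl]
  constructor
  · rintro (h | ⟨y, h1, h2⟩)
    · exact ⟨x, h, self_inn D x⟩
    · exact ⟨y, h1, mem_inn.2 (Or.inr h2)⟩
  · rintro ⟨y, h1, h2⟩
    rcases mem_inn.1 h2 with h3 | h3
    · exact Or.inl (h3 ▸ h1)
    · exact Or.inr ⟨y, h1, h3⟩

theorem mem_cl_single {D : OGraph V} {a x : V} : x ∈ cl D {a} ↔ a ∈ inn D x := by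
  rw [mem_cl_iff]
  constructor
  · rintro ⟨y, h1, h2⟩
    rw [Finset.mem_singleton] at h1
    exact h1 ▸ h2
  · intro h
    exact ⟨a, Finset.mem_singleton_self a, h⟩

theorem inn_antisymm {D : OGraph V} {a b : V} (h1 : a ∈ inn D b) (h2 : b ∈ inn D a) : a = b := by
  rcases mem_inn.1 h1 with h3 | h3
  · exact h3
  · rcases mem_inn.1 h2 with h4 | h4
    · exact h4.symm
    · exact absurd h4 (D.asymm _ _ h3)

theorem cc_nonneg (D : OGraph V) (w : V → ℝ) (hw : ∀ v, 0 ≤ w v) (S : Finset V) :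
    0 ≤ cc D w S := sub_nonneg.2 (W_mono hw (subset_cl D S))

variable [DecidableEq V]

theorem cl_union' (D : OGraph V) (S T : Finset V) : cl D (S ∪ T) = cl D S ∪ cl D T := by
  ext x
  rw [Finset.mem_union, mem_cl_iff, mem_cl_iff, mem_cl_iff]
  constructor
  · rintro ⟨y, h1, h2⟩
    rcases Finset.mem_union.1 h1 with h1 | h1
    · exact Or.inl ⟨y, h1, h2⟩
    · exact Or.inr ⟨y, h1, h2⟩
  · rintro (⟨y, h1, h2⟩ | ⟨y, h1, h2⟩)
    · exact ⟨y, Finset.mem_union_left _ h1, h2⟩
    · exact ⟨y, Finset.mem_union_right _ h1, h2⟩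

theorem cc_sub (D : OGraph V) (w : V → ℝ) (hw : ∀ v, 0 ≤ w v) (S T : Finset V) :
    cc D w (S ∪ T) + cc D w (S ∩ T) ≤ cc D w S + cc D w T := by
  have h1 := cl_union' D S T
  have h2 : cl D (S ∩ T) ⊆ cl D S ∩ cl D T := Finset.subset_inter
    (cl_mono' Finset.inter_subset_left) (cl_mono' Finset.inter_subset_right)
  have h3 := Finset.sum_union_inter (f := w) (s₁ := cl D S) (s₂ := cl D T)
  have h4 := Finset.sum_union_inter (f := w) (s₁ := S) (s₂ := T)
  have h5 := W_mono hw h2
  unfold cc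
  rw [h1]
  unfold W at h5 ⊢
  linarith

/-- Feasible pairs of families. -/
structure Feas (D : OGraph V) (P Q : V → Finset V) : Prop where
  hP : ∀ a, cl D {a} ⊆ P a
  hQ : ∀ a, cl D {a} ⊆ Q a
  hc : ∀ a b, b ∈ P a → a ∈ Q b → a = b

/-- The cost of a pair of families. -/
noncomputable def cost (D : OGraph V) (w : V → ℝ) (P Q : V → Finset V) : ℝ :=
  ∑ a, w a * cc D w (P a) + ∑ b, w b * cc D w (Q b)

theorem exists_min (D : OGraph V) (w : V → ℝ) :
    ∃ P Q, Feas D P Q ∧ ∀ P' Q', Feas D P' Q' → cost D w P Q ≤ cost D w P' Q' := by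
  obtain ⟨⟨P, Q⟩, h1, h2⟩ := Set.exists_min_image
    {R : (V → Finset V) × (V → Finset V) | Feas D R.1 R.2} (fun R => cost D w R.1 R.2)
    (Set.toFinite _) ⟨(fun a => cl D {a}, fun a => cl D {a}), ⟨fun a => subset_rfl,
      fun a => subset_rfl, fun a b h1 h2 => inn_antisymm (mem_cl_single.1 h1)
        (mem_cl_single.1 h2)⟩⟩
  exact ⟨P, Q, h1, fun P' Q' h => h2 (P', Q') h⟩

theorem sum_update (w : V → ℝ) (c : Finset V → ℝ) (P : V → Finset V) (a : V) (S : Finset V) :
    ∑ x, w x * c (Function.update P a S x) =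
      ∑ x, w x * c (P x) - w a * c (P a) + w a * c S := by
  rw [← Finset.add_sum_erase Finset.univ _ (Finset.mem_univ a),
    ← Finset.add_sum_erase Finset.univ (fun x => w x * c (P x)) (Finset.mem_univ a)]
  rw [Function.update_self]
  have : ∑ x ∈ Finset.univ.erase a, w x * c (Function.update P a S x) =
      ∑ x ∈ Finset.univ.erase a, w x * c (P x) := by
    refine Finset.sum_congr rfl fun x hx => ?_
    rw [Function.update_of_ne (Finset.ne_of_mem_erase hx)]
  rw [this]
  ring

/-- The upper rows. -/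
noncomputable def Up (Q : V → Finset V) (a : V) : Finset V :=
  Finset.univ.filter fun x => x = a ∨ a ∉ Q x

theorem mem_Up {Q : V → Finset V} {a x : V} : x ∈ Up Q a ↔ (x = a ∨ a ∉ Q x) := by
  simp [Up]

/-- The intersection of a family over the closed in-neighbourhood. -/
noncomputable def dn (D : OGraph V) (P : V → Finset V) (v : V) : Finset V :=
  Finset.univ.filter fun x => ∀ z ∈ inn D v, x ∈ P z

theorem mem_dn {D : OGraph V} {P : V → Finset V} {v x : V} :
    x ∈ dn D P v ↔ ∀ z ∈ inn D v, x ∈ P z := by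
  simp [dn]

theorem self_mem_dn {D : OGraph V} {P : V → Finset V} (hP : ∀ a, cl D {a} ⊆ P a) (v : V) :
    v ∈ dn D P v :=
  mem_dn.2 fun z hz => hP z (mem_cl_single.2 hz)

/-- Compatibility of the shifted pair. -/
theorem feas_shift {D : OGraph V} {P Q : V → Finset V} (h : Feas D P Q) :
    Feas D (fun a => cl D (dn D P a)) (fun b => cl D (dn D Q b)) := by
  refine ⟨fun a => cl_mono' ?_, fun a => cl_mono' ?_, ?_⟩
  · rw [Finset.singleton_subset_iff]
    exact self_mem_dn h.hP a
  · rw [Finset.singleton_subset_iff]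
    exact self_mem_dn h.hQ a
  · intro a b h1 h2
    obtain ⟨y, hy1, hy2⟩ := mem_cl_iff.1 h1
    obtain ⟨z, hz1, hz2⟩ := mem_cl_iff.1 h2
    rw [mem_dn] at hy1 hz1
    have e : z = y := h.hc z y (hy1 z hz2) (hz1 y hy2)
    subst e
    -- z = a
    have e1 : z = a := by
      have h3 : z ∈ P a := hy1 a (self_inn D a)
      have h4 : a ∈ Q z := h.hQ z (mem_cl_single.2 hz2)
      exact (h.hc a z h3 h4).symm
    have e2 : z = b := by
      have h3 : z ∈ Q b := hz1 b (self_inn D b)
      have h4 : b ∈ P z := h.hP z (mem_cl_single.2 hy2)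
      exact h.hc z b h4 h3
    exact e1.symm.trans e2

theorem row_opt {D : OGraph V} {w : V → ℝ} (hw : ∀ v, 0 < w v) {P Q : V → Finset V}
    (h : Feas D P Q) (hmin : ∀ P' Q', Feas D P' Q' → cost D w P Q ≤ cost D w P' Q')
    (a : V) (S : Finset V) (h1 : P a ⊆ S) (h2 : S ⊆ Up Q a) : cc D w (P a) ≤ cc D w S := by
  have hf : Feas D (Function.update P a S) Q := by
    refine ⟨?_, h.hQ, ?_⟩
    · intro x
      by_cases hx : x = a
      · subst hx
        rw [Function.update_self]
        exact (h.hP x).trans h1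
      · rw [Function.update_of_ne hx]
        exact h.hP x
    · intro x b hb hx
      by_cases hxa : x = a
      · subst hxa
        rw [Function.update_self] at hb
        rcases mem_Up.1 (h2 hb) with h3 | h3
        · exact h3.symm
        · exact absurd hx h3
      · rw [Function.update_of_ne hxa] at hb
        exact h.hc x b hb hx
  have h3 := hmin _ _ hf
  unfold cost at h3
  rw [sum_update] at h3
  have h4 : w a * cc D w (P a) ≤ w a * cc D w S := by linarith
  exact le_of_mul_le_mul_left h4 (hw a)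

theorem col_opt {D : OGraph V} {w : V → ℝ} (hw : ∀ v, 0 < w v) {P Q : V → Finset V}
    (h : Feas D P Q) (hmin : ∀ P' Q', Feas D P' Q' → cost D w P Q ≤ cost D w P' Q')
    (b : V) (T : Finset V) (hT : ∀ a ∈ T, b ∈ Up Q a ∧ b ∉ P a) :
    W w T ≤ W w (Finset.univ.filter fun v => b ∈ dn D (Up Q) v ∧ ∃ a ∈ T, a ∈ inn D v) := by
  have hT' : ∀ a ∈ T, a ∉ Q b := by
    intro a ha
    obtain ⟨h1, h2⟩ := hT a ha
    rcases mem_Up.1 h1 with h3 | h3
    · exfalso
      apply h2
      rw [h3]
      exact h.hP a (mem_cl_single.2 (self_inn D a))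
    · exact h3
  have hf : Feas D P (Function.update Q b (Q b ∪ T)) := by
    refine ⟨h.hP, ?_, ?_⟩
    · intro x
      by_cases hx : x = b
      · subst hx
        rw [Function.update_self]
        exact (h.hQ x).trans Finset.subset_union_left
      · rw [Function.update_of_ne hx]
        exact h.hQ x
    · intro a x hx ha
      by_cases hxb : x = b
      · subst hxb
        rw [Function.update_self] at ha
        rcases Finset.mem_union.1 ha with h3 | h3
        · exact h.hc a x hx h3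
        · exact absurd hx (hT a h3).2
      · rw [Function.update_of_ne hxb] at ha
        exact h.hc a x hx ha
  have h3 := hmin _ _ hf
  unfold cost at h3
  rw [sum_update] at h3
  have h4 : w b * cc D w (Q b) ≤ w b * cc D w (Q b ∪ T) := by linarith
  have h5 := le_of_mul_le_mul_left h4 (hw b)
  have hw' : ∀ v, 0 ≤ w v := fun v => (hw v).le
  have hdis : Disjoint (Q b) T := by
    rw [Finset.disjoint_left]
    intro a h6 h7
    exact hT' a h7 h6
  unfold cc at h5
  rw [cl_union', W_union hdis] at h5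
  have h6 : cl D (Q b) ∪ cl D T = cl D (Q b) ∪ (cl D T \ cl D (Q b)) :=
    Finset.union_sdiff_self_eq_union.symm
  rw [h6, W_union Finset.disjoint_sdiff] at h5
  have h7 : W w (cl D T \ cl D (Q b)) ≤
      W w (Finset.univ.filter fun v => b ∈ dn D (Up Q) v ∧ ∃ a ∈ T, a ∈ inn D v) := by
    refine W_mono hw' ?_
    intro v hv
    obtain ⟨hv1, hv2⟩ := Finset.mem_sdiff.1 hv
    refine Finset.mem_filter.2 ⟨Finset.mem_univ _, ?_, mem_cl_iff.1 hv1⟩
    rw [mem_dn]
    intro z hz
    rw [mem_Up]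
    right
    intro h8
    exact hv2 (mem_cl_iff.2 ⟨z, h8, hz⟩)
  linarith

/-- The second half of (LK). -/
theorem lk2 {D : OGraph V} {w : V → ℝ} (hw : ∀ v, 0 ≤ w v) {P Q : V → Finset V}
    (h : Feas D P Q) :
    ∑ b, w b * cc D w (dn D Q b) + ∑ a, w a * cc D w (dn D (Up Q) a) ≤
      ∑ b, w b * cc D w (Q b) + ∑ a, w a * cc D w (Up Q a) := by
  have r1 : ∀ R : V → Finset V, ∑ a, w a * cc D w (R a) =
      ∑ a, ∑ x, w a * w x * ((if x ∈ cl D (R a) then 1 else 0) - (if x ∈ R a then 1 else 0)) := by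
    intro R
    refine Finset.sum_congr rfl fun a _ => ?_
    have e : ∀ S : Finset V, W w S = ∑ x, w x * (if x ∈ S then 1 else 0) := by
      intro S
      unfold W
      simp
    unfold cc
    rw [e, e, ← Finset.sum_sub_distrib, Finset.mul_sum]
    refine Finset.sum_congr rfl fun x _ => ?_
    ring
  have r2 : ∀ R : V → Finset V, ∑ a, w a * cc D w (R a) =
      ∑ a, ∑ x, w a * w x * ((if a ∈ cl D (R x) then 1 else 0) - (if a ∈ R x then 1 else 0)) := by
    intro R
    rw [r1, Finset.sum_comm]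
    refine Finset.sum_congr rfl fun a _ => Finset.sum_congr rfl fun x _ => ?_
    rw [mul_comm (w x) (w a)]
  rw [r2 (dn D Q), r1 (dn D (Up Q)), r2 Q, r1 (Up Q), ← Finset.sum_add_distrib,
    ← Finset.sum_add_distrib]
  refine Finset.sum_le_sum fun a _ => ?_
  rw [← Finset.sum_add_distrib, ← Finset.sum_add_distrib]
  refine Finset.sum_le_sum fun x _ => ?_
  rw [← mul_add, ← mul_add]
  refine mul_le_mul_of_nonneg_left ?_ (mul_nonneg (hw a) (hw x))
  by_cases hxa : x = a
  · subst hxa
    have h1 : x ∈ dn D Q x := self_mem_dn h.hQ x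
    have h2 : x ∈ Up Q x := mem_Up.2 (Or.inl rfl)
    have h3 : x ∈ Q x := h.hQ x (mem_cl_single.2 (self_inn D x))
    have h4 : x ∈ dn D (Up Q) x := by
      rw [mem_dn]
      intro z hz
      rw [mem_Up]
      by_contra hcon
      push Not at hcon
      exact hcon.1 (h.hc z x (h.hP z (mem_cl_single.2 hz)) hcon.2).symm
    rw [if_pos h1, if_pos h2, if_pos h3, if_pos h4, if_pos (subset_cl _ _ h1),
      if_pos (subset_cl _ _ h2), if_pos (subset_cl _ _ h3), if_pos (subset_cl _ _ h4)]
  · have hU : x ∈ Up Q a ↔ a ∉ Q x := by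
      rw [mem_Up]
      exact ⟨fun h1 => h1.resolve_left hxa, Or.inr⟩
    have hXh : x ∈ dn D (Up Q) a ↔ a ∉ cl D (Q x) := by
      rw [mem_dn]
      constructor
      · intro h1 h2
        obtain ⟨z, hz1, hz2⟩ := mem_cl_iff.1 h2
        rcases mem_Up.1 (h1 z hz2) with h3 | h3
        · rcases mem_Up.1 (h1 a (self_inn D a)) with h4 | h4
          · exact hxa h4
          · exact h4 (h.hQ x (mem_cl_single.2 (h3 ▸ hz2)))
        · exact h3 hz1
      · intro h1 z hz
        exact mem_Up.2 (Or.inr fun h2 => h1 (mem_cl_iff.2 ⟨z, h2, hz⟩))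
    have h3 : ¬ (x ∈ cl D (dn D (Up Q) a) ∧ a ∈ cl D (dn D Q x)) := by
      rintro ⟨h1, h2⟩
      obtain ⟨y, hy1, hy2⟩ := mem_cl_iff.1 h1
      obtain ⟨z, hz1, hz2⟩ := mem_cl_iff.1 h2
      rw [mem_dn] at hy1 hz1
      have e : y = z := by
        rcases mem_Up.1 (hy1 z hz2) with h4 | h4
        · exact h4
        · exact absurd (hz1 y hy2) h4
      subst e
      have e1 : y = a := by
        rcases mem_Up.1 (hy1 a (self_inn D a)) with h4 | h4
        · exact h4
        · exact absurd (h.hQ y (mem_cl_single.2 hz2)) h4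
      subst e1
      exact hxa (h.hc y x (h.hP y (mem_cl_single.2 hy2)) (hz1 x (self_inn D x))).symm
    have h4 : x ∈ cl D (dn D (Up Q) a) → x ∈ cl D (Up Q a) := by
      intro h1
      refine cl_mono' ?_ h1
      intro y hy
      exact mem_dn.1 hy a (self_inn D a)
    have h5 : a ∈ cl D (dn D Q x) → x ∈ cl D (Up Q a) ∨ a ∈ dn D Q x := by
      intro _
      by_cases h6 : a ∈ dn D Q x
      · exact Or.inr h6
      · left
        rw [mem_dn] at h6
        push Not at h6
        obtain ⟨y, hy1, hy2⟩ := h6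
        exact mem_cl_iff.2 ⟨y, mem_Up.2 (Or.inr hy2), hy1⟩
    have e1 : (if x ∈ Up Q a then (1 : ℝ) else 0) = 1 - (if a ∈ Q x then 1 else 0) := by
      by_cases h6 : a ∈ Q x
      · rw [if_pos h6, if_neg (fun h7 => (hU.1 h7) h6)]
        ring
      · rw [if_neg h6, if_pos (hU.2 h6)]
        ring
    have e2 : (if x ∈ dn D (Up Q) a then (1 : ℝ) else 0) =
        1 - (if a ∈ cl D (Q x) then 1 else 0) := by
      by_cases h6 : a ∈ cl D (Q x)
      · rw [if_pos h6, if_neg (fun h7 => (hXh.1 h7) h6)]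
        ring
      · rw [if_neg h6, if_pos (hXh.2 h6)]
        ring
    rw [e1, e2]
    have key : (if a ∈ cl D (dn D Q x) then (1 : ℝ) else 0) +
        (if x ∈ cl D (dn D (Up Q) a) then 1 else 0) ≤
        (if x ∈ cl D (Up Q a) then 1 else 0) + (if a ∈ dn D Q x then 1 else 0) := by
      by_cases A1 : a ∈ cl D (dn D Q x)
      · have A3 : ¬ x ∈ cl D (dn D (Up Q) a) := fun h6 => h3 ⟨h6, A1⟩
        rw [if_pos A1, if_neg A3]
        rcases h5 A1 with h6 | h6
        · rw [if_pos h6]
          split_ifs <;> norm_num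
        · rw [if_pos h6]
          split_ifs <;> norm_num
      · rw [if_neg A1]
        by_cases A3 : x ∈ cl D (dn D (Up Q) a)
        · rw [if_pos A3, if_pos (h4 A3)]
          split_ifs <;> norm_num
        · rw [if_neg A3]
          split_ifs <;> norm_num
    linarith

/-- (LK): the shifted pair is not more expensive. -/
theorem lk {D : OGraph V} {w : V → ℝ} (hw : ∀ v, 0 < w v) {P Q : V → Finset V}
    (h : Feas D P Q) (hmin : ∀ P' Q', Feas D P' Q' → cost D w P Q ≤ cost D w P' Q') :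
    cost D w (dn D P) (dn D Q) ≤ cost D w P Q := by
  have hw' : ∀ v, 0 ≤ w v := fun v => (hw v).le
  have hLU : ∀ a, P a ⊆ Up Q a := by
    intro a x hx
    rw [mem_Up]
    by_contra hcon
    push Not at hcon
    exact hcon.1 (h.hc a x hx hcon.2).symm
  have h1 := star (cc D w) (cc_sub D w hw') w hw' (inn D) P (Up Q) (dn D P) (dn D (Up Q))
    hLU (row_opt hw h hmin) (fun v x => mem_dn) (fun v x => mem_dn) (col_opt hw h hmin)
  have h2 := lk2 hw' h
  simp only [mul_sub, Finset.sum_sub_distrib] at h1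
  unfold cost
  linarith

/-- (G) in terms of `cc`. -/
theorem cc_cl {lam : ℝ} {D : OGraph V} {w : V → ℝ} (h : Opt lam D w) (X : Finset V) :
    cc D w (cl D X) ≤ lam * cc D w X := by
  have h1 := step3 h X
  set L := outS D X \ X with hL
  have e1 : cl D X = X ∪ L := by
    ext z
    rw [mem_cl, Finset.mem_union, hL, Finset.mem_sdiff, mem_outS]
    tauto
  have e2 : cl D (cl D X) = (X ∪ L) ∪ (outS D L \ (X ∪ L)) := by
    rw [e1]
    ext z
    rw [mem_cl, Finset.mem_union (s := X ∪ L), Finset.mem_sdiff, mem_outS]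
    constructor
    · rintro (h2 | ⟨y, h2, h3⟩)
      · exact Or.inl h2
      · by_cases hz : z ∈ X ∪ L
        · exact Or.inl hz
        · right
          refine ⟨⟨y, ?_, h3⟩, hz⟩
          rcases Finset.mem_union.1 h2 with h4 | h4
          · exfalso
            apply hz
            rw [← e1, mem_cl]
            exact Or.inr ⟨y, h4, h3⟩
          · exact h4
    · rintro (h2 | ⟨⟨y, h2, h3⟩, _⟩)
      · exact Or.inl h2
      · exact Or.inr ⟨y, Finset.mem_union_right _ h2, h3⟩
  have hd : Disjoint X L := Finset.disjoint_sdiff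
  unfold cc
  rw [e2, W_union Finset.disjoint_sdiff, e1, W_union hd]
  linarith

/-- There is no optimal counterexample for `lam < 1`. -/
theorem no_opt [Nonempty V] {lam : ℝ} (hlam : lam < 1) {D : OGraph V} {w : V → ℝ}
    (h : Opt lam D w) : False := by
  have hw := h.pos
  have hw' : ∀ v, 0 ≤ w v := fun v => (hw v).le
  obtain ⟨P, Q, hf, hmin⟩ := exists_min D w
  have hs := feas_shift hf
  have h1 := hmin _ _ hs
  have h2 := lk hw hf hmin
  have h3 : cost D w (fun a => cl D (dn D P a)) (fun b => cl D (dn D Q b)) ≤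
      lam * cost D w (dn D P) (dn D Q) := by
    unfold cost
    rw [mul_add, Finset.mul_sum, Finset.mul_sum]
    refine add_le_add (Finset.sum_le_sum fun a _ => ?_) (Finset.sum_le_sum fun a _ => ?_)
    · have := mul_le_mul_of_nonneg_left (cc_cl h (dn D P a)) (hw' a)
      linarith
    · have := mul_le_mul_of_nonneg_left (cc_cl h (dn D Q a)) (hw' a)
      linarith
  have hpos : ∀ R : V → Finset V, 0 ≤ ∑ a, w a * cc D w (R a) := fun R =>
    Finset.sum_nonneg fun a _ => mul_nonneg (hw' a) (cc_nonneg D w hw' _)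
  have h4 : 0 ≤ cost D w (dn D P) (dn D Q) := add_nonneg (hpos _) (hpos _)
  have h5 : cost D w (dn D P) (dn D Q) ≤ 0 := by
    by_contra hcon
    push Not at hcon
    have : lam * cost D w (dn D P) (dn D Q) < 1 * cost D w (dn D P) (dn D Q) :=
      mul_lt_mul_of_pos_right hlam hcon
    linarith
  have hzero : ∀ R : V → Finset V, ∑ a, w a * cc D w (R a) ≤ 0 → ∀ a, cl D (R a) ⊆ R a := by
    intro R hR a
    have h6 : ∑ a, w a * cc D w (R a) = 0 := le_antisymm hR (hpos R)
    have h7 := (Finset.sum_eq_zero_iff_of_nonneg (fun a _ =>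
      mul_nonneg (hw' a) (cc_nonneg D w hw' (R a)))).1 h6 a (Finset.mem_univ a)
    have h8 : cc D w (R a) = 0 := by
      rcases mul_eq_zero.1 h7 with h9 | h9
      · exact absurd h9 (hw a).ne'
      · exact h9
    unfold cc at h8
    rw [← W_sdiff (subset_cl D (R a))] at h8
    unfold W at h8
    rw [Finset.sum_eq_zero_iff_of_nonneg (fun x _ => hw' x)] at h8
    intro x hx
    by_contra hx'
    exact (hw x).ne' (h8 x (Finset.mem_sdiff.2 ⟨hx, hx'⟩))
  have hXc : ∀ a, cl D (dn D P a) ⊆ dn D P a := hzero _ (by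
    have := hpos (dn D Q)
    unfold cost at h5
    linarith)
  have hYc : ∀ a, cl D (dn D Q a) ⊆ dn D Q a := hzero _ (by
    have := hpos (dn D P)
    unfold cost at h5
    linarith)
  -- a minimal closed set
  obtain ⟨S, hS, hSmin⟩ := Finset.exists_min_image
    (Finset.univ.filter fun S : Finset V => S.Nonempty ∧ cl D S ⊆ S) Finset.card
    ⟨Finset.univ, Finset.mem_filter.2 ⟨Finset.mem_univ _, Finset.univ_nonempty,
      Finset.subset_univ _⟩⟩
  obtain ⟨-, ⟨a, ha⟩, hScl⟩ := Finset.mem_filter.1 hS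
  have hsubS : ∀ T : Finset V, cl D T ⊆ T → (S ∩ T).Nonempty → S ⊆ T := by
    intro T hT hne
    have h6 : cl D (S ∩ T) ⊆ S ∩ T := Finset.subset_inter
      ((cl_mono' Finset.inter_subset_left).trans hScl)
      ((cl_mono' Finset.inter_subset_right).trans hT)
    have h7 := hSmin (S ∩ T) (Finset.mem_filter.2 ⟨Finset.mem_univ _, hne, h6⟩)
    have h8 := Finset.eq_of_subset_of_card_le (Finset.inter_subset_left (s₁ := S) (s₂ := T)) h7
    exact Finset.inter_eq_left.1 h8
  have hN : (N1 D a).Nonempty := by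
    rw [Finset.nonempty_iff_ne_empty]
    intro he
    have h6 := h.one a
    unfold Fw at h6
    rw [he] at h6
    have h7 := W_nonneg hw' (N2 D a)
    have h8 : W w (∅ : Finset V) = 0 := by simp [W]
    rw [h8] at h6
    linarith
  obtain ⟨b, hb⟩ := hN
  have hab : D.arc a b := mem_N1.1 hb
  have hbS : b ∈ S := hScl (mem_cl.2 (Or.inr ⟨a, ha, hab⟩))
  have h6 : b ∈ dn D P a := hsubS _ (hXc a)
    ⟨a, Finset.mem_inter.2 ⟨ha, self_mem_dn hf.hP a⟩⟩ hbS
  have h7 : a ∈ dn D Q b := hsubS _ (hYc b)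
    ⟨b, Finset.mem_inter.2 ⟨hbS, self_mem_dn hf.hQ b⟩⟩ ha
  have h8 : a = b := hs.hc a b (subset_cl _ _ h6) (subset_cl _ _ h7)
  subst h8
  exact D.loopless _ hab

end

theorem main_aux {lam : ℝ} (h0 : 0 ≤ lam) (h1 : lam < 1) (n : ℕ) :
    ∀ (V : Type u) [Fintype V] [Nonempty V], Fintype.card V = n →
      ∀ (D : OGraph V) (w : V → ℝ), (∀ v, 0 ≤ w v) → ∃ v, Fw lam D w v ≤ 0 := by
  classical
  induction n using Nat.strong_induction_on with
  | _ n ih =>
    intro V _ _ hn D w hw
    by_contra hcon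
    push Not at hcon
    obtain ⟨D', w', hopt⟩ := exists_opt h0 (V := V) (by
      intro V' _ _ hV' D' w' hw'
      exact ih (Fintype.card V') (hn ▸ hV') V' rfl D' w' hw') D w hw hcon
    exact no_opt h1 hopt

/-- The weighted second neighbourhood theorem. -/
theorem weighted {V : Type u} [Fintype V] [Nonempty V] (D : OGraph V) (w : V → ℝ)
    (hw : ∀ v, 0 ≤ w v) : ∃ v, ∑ u ∈ N1 D v, w u ≤ ∑ u ∈ N2 D v, w u := by
  classical
  by_contra hcon
  push Not at hcon
  -- choose lam close to 1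
  obtain ⟨v0, -, hv0⟩ := Finset.exists_min_image (Finset.univ : Finset V)
    (fun v => (∑ u ∈ N1 D v, w u) - ∑ u ∈ N2 D v, w u) ⟨Classical.arbitrary V,
      Finset.mem_univ _⟩
  set e := (∑ u ∈ N1 D v0, w u) - ∑ u ∈ N2 D v0, w u with he
  have he0 : 0 < e := sub_pos.2 (hcon v0)
  set K := ∑ v, w v with hK
  have hK0 : 0 ≤ K := Finset.sum_nonneg fun v _ => hw v
  have heK : e ≤ K := by
    have h1 : ∑ u ∈ N1 D v0, w u ≤ K := Finset.sum_le_sum_of_subset_of_nonneg
      (Finset.subset_univ _) fun v _ _ => hw v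
    have h2 : 0 ≤ ∑ u ∈ N2 D v0, w u := Finset.sum_nonneg fun v _ => hw v
    linarith
  have hK1 : 0 < K := lt_of_lt_of_le he0 heK
  set lam := 1 - e / (2 * K) with hlam
  have h1 : 0 < e / (2 * K) := by positivity
  have h2 : e / (2 * K) ≤ 1 := by
    rw [div_le_one (by positivity)]
    linarith
  obtain ⟨v, hv⟩ := main_aux (lam := lam) (by linarith) (by linarith) (Fintype.card V) V rfl D w hw
  unfold Fw W at hv
  have h3 : ∑ u ∈ N1 D v, w u ≤ K := Finset.sum_le_sum_of_subset_of_nonneg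
      (Finset.subset_univ _) fun v _ _ => hw v
  have h4 := hv0 v (Finset.mem_univ _)
  have h5 : e / (2 * K) * ∑ u ∈ N1 D v, w u ≤ e / 2 := by
    have h6 := mul_le_mul_of_nonneg_left h3 h1.le
    have h7 : e / (2 * K) * K = e / 2 := by
      field_simp
    linarith
  have h8 : lam * ∑ u ∈ N1 D v, w u = ∑ u ∈ N1 D v, w u - e / (2 * K) * ∑ u ∈ N1 D v, w u := by
    rw [hlam]
    ring
  linarith

/-- The second neighbourhood theorem. -/
theorem snc {V : Type u} [Fintype V] [Nonempty V] (D : OGraph V) :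
    ∃ v, (N1 D v).card ≤ (N2 D v).card := by
  obtain ⟨v, hv⟩ := weighted D (fun _ => (1 : ℝ)) (fun _ => zero_le_one)
  refine ⟨v, ?_⟩
  simpa using hv

end Vale.Agent.P038.H360
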