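import Vale.Agent.P038.H139.Basic

/-!
# The interval inequality (STAR)
-/

namespace Vale.Agent.P038.H360

open Finset Vale.Agent.P038 Vale.Agent.P038.H139

variable {V : Type*} [Fintype V] [DecidableEq V]

/-- The minimum of `c` over an interval of sets. -/
noncomputable def mn (c : Finset V → ℝ) (lo hi : Finset V) : ℝ :=
  sInf (c '' {S | lo ⊆ S ∧ S ⊆ hi})

omit [DecidableEq V] in
theorem mn_le (c : Finset V → ℝ) {lo hi S : Finset V} (h1 : lo ⊆ S) (h2 : S ⊆ hi) :
    mn c lo hi ≤ c S := by
  classical
  exact csInf_le ((Set.toFinite _).bddBelow) ⟨S, ⟨h1, h2⟩, rfl⟩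

omit [DecidableEq V] in
theorem exists_mn (c : Finset V → ℝ) {lo hi : Finset V} (h : lo ⊆ hi) :
    ∃ S, lo ⊆ S ∧ S ⊆ hi ∧ c S = mn c lo hi := by
  classical
  have h1 : (c '' {S | lo ⊆ S ∧ S ⊆ hi}).Nonempty := ⟨c lo, lo, ⟨subset_rfl, h⟩, rfl⟩
  obtain ⟨S, ⟨h2, h3⟩, h4⟩ := h1.csInf_mem (Set.toFinite _)
  exact ⟨S, h2, h3, h4⟩

omit [DecidableEq V] in
theorem le_mn (c : Finset V → ℝ) {lo hi : Finset V} (h : lo ⊆ hi) {t : ℝ}
    (ht : ∀ S, lo ⊆ S → S ⊆ hi → t ≤ c S) : t ≤ mn c lo hi := by
  obtain ⟨S, h1, h2, h3⟩ := exists_mn c h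
  rw [← h3]
  exact ht S h1 h2

omit [DecidableEq V] in
/-- The layer cake comparison. -/
theorem layer (w : V → ℝ) (hw : ∀ v, 0 ≤ w v) (n : ℕ) :
    ∀ (f g : V → ℝ), (∀ v, 0 ≤ f v) → (∀ v, 0 ≤ g v) →
      (Finset.univ.filter fun v => 0 < f v).card = n →
      (∀ t, 0 < t → W w (Finset.univ.filter fun v => t ≤ f v) ≤
        W w (Finset.univ.filter fun v => t ≤ g v)) →
      ∑ v, w v * f v ≤ ∑ v, w v * g v := by
  classical
  induction n using Nat.strong_induction_on with
  | _ n ih =>
    intro f g hf hg hn h
    by_cases hne : (Finset.univ.filter fun v => 0 < f v).Nonempty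
    · obtain ⟨a, ha, hmin⟩ := Finset.exists_min_image _ f hne
      have ha0 : 0 < f a := (Finset.mem_filter.1 ha).2
      set m := f a with hm
      have hmle : ∀ v, 0 < f v → m ≤ f v := fun v hv =>
        hmin v (Finset.mem_filter.2 ⟨Finset.mem_univ _, hv⟩)
      set f' : V → ℝ := fun v => if 0 < f v then f v - m else 0 with hf'
      set g' : V → ℝ := fun v => max (g v - m) 0 with hg'
      have hf'0 : ∀ v, 0 ≤ f' v := by
        intro v
        simp only [hf']
        split_ifs with h1
        · have := hmle v h1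
          linarith
        · exact le_refl _
      have hg'0 : ∀ v, 0 ≤ g' v := fun v => le_max_right _ _
      have hss : (Finset.univ.filter fun v => 0 < f' v) ⊂
          (Finset.univ.filter fun v => 0 < f v) := by
        refine Finset.ssubset_iff_subset_ne.2 ⟨?_, ?_⟩
        · intro v hv
          rw [Finset.mem_filter] at hv ⊢
          refine ⟨hv.1, ?_⟩
          by_contra h1
          have h2 := hv.2
          simp only [hf', if_neg h1, lt_irrefl] at h2
        · intro he
          rw [← he] at ha
          have h2 := (Finset.mem_filter.1 ha).2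
          simp only [hf', if_pos ha0, ← hm, sub_self, lt_irrefl] at h2
      have hcard := Finset.card_lt_card hss
      rw [hn] at hcard
      have h1 := ih _ hcard f' g' hf'0 hg'0 rfl (by
        intro t ht
        have e1 : (Finset.univ.filter fun v => t ≤ f' v) =
            (Finset.univ.filter fun v => t + m ≤ f v) := by
          ext v
          simp only [Finset.mem_filter, Finset.mem_univ, true_and, hf']
          split_ifs with h1
          · constructor <;> intro h2 <;> linarith
          · constructor <;> intro h2 <;> linarith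
        have e2 : (Finset.univ.filter fun v => t ≤ g' v) =
            (Finset.univ.filter fun v => t + m ≤ g v) := by
          ext v
          simp only [Finset.mem_filter, Finset.mem_univ, true_and, hg', le_max_iff]
          constructor
          · rintro (h2 | h2) <;> linarith
          · intro h2
            left
            linarith
        rw [e1, e2]
        exact h _ (by linarith))
      have h2 := h m ha0
      have h3 : ∑ v, w v * f v = ∑ v, w v * f' v +
          m * W w (Finset.univ.filter fun v => m ≤ f v) := by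
        unfold W
        rw [Finset.sum_filter, Finset.mul_sum, ← Finset.sum_add_distrib]
        refine Finset.sum_congr rfl fun v _ => ?_
        simp only [hf']
        by_cases h4 : 0 < f v
        · rw [if_pos h4, if_pos (hmle v h4)]
          ring
        · have h5 : f v = 0 := le_antisymm (not_lt.1 h4) (hf v)
          rw [if_neg h4, if_neg (by rw [h5]; exact not_le.2 ha0), h5]
          ring
      have h4 : ∑ v, w v * g' v + m * W w (Finset.univ.filter fun v => m ≤ g v) ≤
          ∑ v, w v * g v := by
        unfold W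
        rw [Finset.sum_filter, Finset.mul_sum, ← Finset.sum_add_distrib]
        refine Finset.sum_le_sum fun v _ => ?_
        simp only [hg']
        by_cases h5 : m ≤ g v
        · rw [if_pos h5, max_eq_left (by linarith)]
          linarith
        · rw [if_neg h5, max_eq_right (by linarith)]
          have := mul_nonneg (hw v) (hg v)
          linarith
      have h5 := mul_le_mul_of_nonneg_left h2 ha0.le
      linarith
    · have h1 : ∀ v, f v = 0 := by
        intro v
        by_contra h2
        apply hne
        exact ⟨v, Finset.mem_filter.2 ⟨Finset.mem_univ _, lt_of_le_of_ne (hf v) (Ne.symm h2)⟩⟩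
      have h2 : ∑ v, w v * f v = 0 := Finset.sum_eq_zero fun v _ => by rw [h1 v, mul_zero]
      rw [h2]
      exact Finset.sum_nonneg fun v _ => mul_nonneg (hw v) (hg v)

/-- (STAR). -/
theorem star (c : Finset V → ℝ) (hsub : ∀ S T, c (S ∪ T) + c (S ∩ T) ≤ c S + c T)
    (w : V → ℝ) (hw : ∀ v, 0 ≤ w v) (inn : V → Finset V) (L U X Xh : V → Finset V)
    (hLU : ∀ a, L a ⊆ U a)
    (hrow : ∀ a S, L a ⊆ S → S ⊆ U a → c (L a) ≤ c S)
    (hX : ∀ v x, x ∈ X v ↔ ∀ z ∈ inn v, x ∈ L z)
    (hXh : ∀ v x, x ∈ Xh v ↔ ∀ z ∈ inn v, x ∈ U z)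
    (hcol : ∀ b (T : Finset V), (∀ a ∈ T, b ∈ U a ∧ b ∉ L a) →
      W w T ≤ W w (Finset.univ.filter fun v => b ∈ Xh v ∧ ∃ a ∈ T, a ∈ inn v)) :
    ∑ a, w a * (c (U a) - c (L a)) ≤ ∑ v, w v * (c (Xh v) - c (X v)) := by
  have hXL : ∀ v z, z ∈ inn v → X v ⊆ L z := fun v z hz x hx => (hX v x).1 hx z hz
  have hXU : ∀ v z, z ∈ inn v → Xh v ⊆ U z := fun v z hz x hx => (hXh v x).1 hx z hz
  have hXX : ∀ v, X v ⊆ Xh v := fun v x hx => (hXh v x).2 fun z hz =>
    hLU z ((hX v x).1 hx z hz)
  let m : Finset V → V → ℝ := fun B a => mn c (L a ∪ (B ∩ U a)) (U a)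
  let p : Finset V → V → ℝ := fun B v => mn c (X v ∪ (B ∩ Xh v)) (Xh v)
  have hmI : ∀ B a, L a ∪ (B ∩ U a) ⊆ U a := fun B a =>
    Finset.union_subset (hLU a) Finset.inter_subset_right
  have hpI : ∀ B v, X v ∪ (B ∩ Xh v) ⊆ Xh v := fun B v =>
    Finset.union_subset (hXX v) Finset.inter_subset_right
  have hmono : ∀ (B : Finset V) (b : V) (K U : Finset V), K ∪ (B ∩ U) ⊆ K ∪ (insert b B ∩ U) :=
    fun B b K U => Finset.union_subset_union_right
      (Finset.inter_subset_inter_right (Finset.subset_insert _ _))
  have hm1 : ∀ B b a, m B a ≤ m (insert b B) a := fun B b a =>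
    le_mn c (hmI _ _) fun S h1 h2 => mn_le c ((hmono B b _ _).trans h1) h2
  have hp1 : ∀ B b v, p B v ≤ p (insert b B) v := fun B b v =>
    le_mn c (hpI _ _) fun S h1 h2 => mn_le c ((hmono B b _ _).trans h1) h2
  -- (1)
  have claim : ∀ B b a v, a ∈ inn v → b ∈ Xh v →
      m (insert b B) a - m B a ≤ p (insert b B) v - p B v := by
    intro B b a v hav hbv
    obtain ⟨S, hS1, hS2, hS3⟩ := exists_mn c (hpI (insert b B) v)
    obtain ⟨R, hR1, hR2, hR3⟩ := exists_mn c (hmI B a)
    have hbS : b ∈ S := hS1 (Finset.mem_union_right _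
      (Finset.mem_inter.2 ⟨Finset.mem_insert_self _ _, hbv⟩))
    have h1 : p B v ≤ c (S ∩ R) := by
      refine mn_le c ?_ (Finset.inter_subset_left.trans hS2)
      intro x hx
      refine Finset.mem_inter.2 ⟨hS1 (hmono B b _ _ hx), hR1 ?_⟩
      rcases Finset.mem_union.1 hx with hx | hx
      · exact Finset.mem_union_left _ (hXL v a hav hx)
      · obtain ⟨h2, h3⟩ := Finset.mem_inter.1 hx
        exact Finset.mem_union_right _ (Finset.mem_inter.2 ⟨h2, hXU v a hav h3⟩)
    have h2 : m (insert b B) a ≤ c (S ∪ R) := by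
      refine mn_le c ?_ (Finset.union_subset (hS2.trans (hXU v a hav)) hR2)
      intro x hx
      rcases Finset.mem_union.1 hx with hx | hx
      · exact Finset.mem_union_right _ (hR1 (Finset.mem_union_left _ hx))
      · obtain ⟨h2, h3⟩ := Finset.mem_inter.1 hx
        rcases Finset.mem_insert.1 h2 with h2 | h2
        · rw [h2]
          exact Finset.mem_union_left _ hbS
        · exact Finset.mem_union_right _ (hR1 (Finset.mem_union_right _
            (Finset.mem_inter.2 ⟨h2, h3⟩)))
    have h3 := hsub S R
    have h4 : c S = p (insert b B) v := hS3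
    have h5 : c R = m B a := hR3
    linarith
  have hzero : ∀ B b a, ¬ (b ∈ U a ∧ b ∉ L a) → m (insert b B) a = m B a := by
    intro B b a h
    have e : L a ∪ (insert b B ∩ U a) = L a ∪ (B ∩ U a) := by
      ext x
      simp only [Finset.mem_union, Finset.mem_inter, Finset.mem_insert]
      constructor
      · rintro (h1 | ⟨h1 | h1, h2⟩)
        · exact Or.inl h1
        · left
          by_contra h3
          exact h ⟨h1 ▸ h2, h1 ▸ h3⟩
        · exact Or.inr ⟨h1, h2⟩
      · rintro (h1 | ⟨h1, h2⟩)
        · exact Or.inl h1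
        · exact Or.inr ⟨Or.inr h1, h2⟩
    show mn c _ _ = mn c _ _
    rw [e]
  -- (2)
  have step : ∀ B b, ∑ a, w a * (m (insert b B) a - m B a) ≤
      ∑ v, w v * (p (insert b B) v - p B v) := by
    intro B b
    refine layer w hw _ _ _ (fun v => sub_nonneg.2 (hm1 B b v)) (fun v => sub_nonneg.2 (hp1 B b v))
      rfl ?_
    intro t ht
    refine (hcol b _ ?_).trans ?_
    · intro a ha
      have h1 := (Finset.mem_filter.1 ha).2
      by_contra h2
      rw [hzero B b a h2, sub_self] at h1
      linarith
    · refine W_mono hw ?_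
      intro v hv
      obtain ⟨-, hb, a, ha, hav⟩ := Finset.mem_filter.1 hv
      refine Finset.mem_filter.2 ⟨Finset.mem_univ _, ?_⟩
      exact ((Finset.mem_filter.1 ha).2).trans (claim B b a v hav hb)
  have total : ∀ B, ∑ a, w a * (m B a - m ∅ a) ≤ ∑ v, w v * (p B v - p ∅ v) := by
    intro B
    induction B using Finset.induction_on with
    | empty => simp
    | insert b B _ ihB =>
      have h1 := step B b
      have e1 : ∑ a, w a * (m (insert b B) a - m ∅ a) =
          ∑ a, w a * (m (insert b B) a - m B a) + ∑ a, w a * (m B a - m ∅ a) := by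
        rw [← Finset.sum_add_distrib]
        exact Finset.sum_congr rfl fun a _ => by ring
      have e2 : ∑ a, w a * (p (insert b B) a - p ∅ a) =
          ∑ a, w a * (p (insert b B) a - p B a) + ∑ a, w a * (p B a - p ∅ a) := by
        rw [← Finset.sum_add_distrib]
        exact Finset.sum_congr rfl fun a _ => by ring
      rw [e1, e2]
      linarith
  have hfin := total Finset.univ
  have hmU : ∀ a, m Finset.univ a = c (U a) := by
    intro a
    have e : L a ∪ (Finset.univ ∩ U a) = U a := by
      rw [Finset.univ_inter]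
      exact Finset.union_eq_right.2 (hLU a)
    show mn c _ _ = _
    rw [e]
    refine le_antisymm (mn_le c subset_rfl subset_rfl) (le_mn c subset_rfl fun S h1 h2 => ?_)
    rw [Finset.Subset.antisymm h1 h2]
  have hpU : ∀ v, p Finset.univ v = c (Xh v) := by
    intro v
    have e : X v ∪ (Finset.univ ∩ Xh v) = Xh v := by
      rw [Finset.univ_inter]
      exact Finset.union_eq_right.2 (hXX v)
    show mn c _ _ = _
    rw [e]
    refine le_antisymm (mn_le c subset_rfl subset_rfl) (le_mn c subset_rfl fun S h1 h2 => ?_)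
    rw [Finset.Subset.antisymm h1 h2]
  have hm0 : ∀ a, m ∅ a = c (L a) := by
    intro a
    have e : L a ∪ (∅ ∩ U a) = L a := by
      rw [Finset.empty_inter, Finset.union_empty]
    show mn c _ _ = _
    rw [e]
    exact le_antisymm (mn_le c subset_rfl (hLU a)) (le_mn c (hLU a) (hrow a))
  have hp0 : ∀ v, c (X v) ≤ p ∅ v := by
    intro v
    have e : X v ∪ (∅ ∩ Xh v) = X v := by
      rw [Finset.empty_inter, Finset.union_empty]
    show _ ≤ mn c _ _
    rw [e]
    refine le_mn c (hXX v) fun S h1 h2 => ?_
    -- intersect with the `L z`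
    have key : ∀ I : Finset V, I ⊆ inn v →
        c (S ∩ Finset.univ.filter fun x => ∀ z ∈ I, x ∈ L z) ≤ c S := by
      intro I
      induction I using Finset.induction_on with
      | empty =>
        intro _
        simp
      | insert z I _ ihI =>
        intro hI
        have hz : z ∈ inn v := hI (Finset.mem_insert_self _ _)
        have h3 := ihI ((Finset.subset_insert _ _).trans hI)
        set T := S ∩ Finset.univ.filter fun x => ∀ z ∈ I, x ∈ L z with hT
        have e3 : (S ∩ Finset.univ.filter fun x => ∀ z' ∈ insert z I, x ∈ L z') = T ∩ L z := by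
          ext x
          simp only [hT, Finset.mem_inter, Finset.mem_filter, Finset.mem_univ, true_and,
            Finset.mem_insert, forall_eq_or_imp]
          tauto
        rw [e3]
        have h4 := hsub T (L z)
        have h5 := hrow z (T ∪ L z) Finset.subset_union_right
          (Finset.union_subset ((Finset.inter_subset_left.trans h2).trans (hXU v z hz)) (hLU z))
        linarith
    have h3 := key (inn v) subset_rfl
    have e4 : (S ∩ Finset.univ.filter fun x => ∀ z ∈ inn v, x ∈ L z) = X v := by
      ext x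
      simp only [Finset.mem_inter, Finset.mem_filter, Finset.mem_univ, true_and, ← hX]
      exact ⟨fun h => h.2, fun h => ⟨h1 h, h⟩⟩
    rw [e4] at h3
    exact h3
  have e1 : ∑ a, w a * (c (U a) - c (L a)) =
      ∑ a, w a * (m Finset.univ a - m ∅ a) :=
    Finset.sum_congr rfl fun a _ => by rw [hmU, hm0]
  rw [e1]
  refine hfin.trans (Finset.sum_le_sum fun v _ => mul_le_mul_of_nonneg_left ?_ (hw v))
  rw [hpU]
  have := hp0 v
  linarith

end Vale.Agent.P038.H360
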